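import Vale.Agent.Lib.P338.Lemmas

/-!
An explicit lower bound for integer multiplication on multitape Turing machines:
every machine that multiplies needs at least `4 n - 1` steps on some input of length `n`.
-/

namespace Vale.Agent.Results.P338.FourNLowerBound

open Vale.Agent.Lib.P338

theorem result {k : ℕ} {Q Γ : Type} (A : Machine k Q Γ) (σ : Sym → Γ)
    (hσ : Function.Injective σ) (o : Fin (k + 1)) (hA : Multiplies A σ o)
    (n : ℕ) (hn : 4 ≤ n) :
    ∃ x y : Fin n → Bool, ∀ t, A.HaltsAt (initCfg A σ x y) t → 4 * n - 1 ≤ t :=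
  four_n_lower_bound A σ hσ o hA n hn

end Vale.Agent.Results.P338.FourNLowerBound
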